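import Vale.Agent.P057.Block4
import Vale.Agent.P057.Asym

open Finset Filter Real

namespace Vale.Agent.Results.P057.FourTerm

theorem result (C : ℝ) (hC : 2 * Real.sqrt (Real.log (81 / 25)) < C) :
    ∀ᶠ N : ℕ in Filter.atTop, ∃ A : Finset ℕ, A ⊆ Finset.Icc 1 N ∧
      (∀ a d : ℕ, 0 < d → ¬ (a ∈ A ∧ a + d ∈ A ∧ a + 2 * d ∈ A ∧ a + 3 * d ∈ A)) ∧
      (N : ℝ) * Real.exp (-C * Real.sqrt (Real.log N)) ≤ A.card := by
  have hC' : 2 * √(2 * log (1 / (5 / 9 : ℝ))) < C := by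
    have : 2 * log (1 / (5 / 9 : ℝ)) = log (81 / 25) := by
      rw [show (81 / 25 : ℝ) = (1 / (5 / 9)) ^ 2 by norm_num, log_pow]; norm_num
    rwa [this]
  have h := Vale.Agent.P057.asym 9 (by norm_num) (5 / 9) 4 (by norm_num) (by norm_num) (by norm_num)
    (fun A => ∀ a d : ℕ, 0 < d → ¬ (a ∈ A ∧ a + d ∈ A ∧ a + 2 * d ∈ A ∧ a + 3 * d ∈ A))
    (fun M n hM => by
      obtain ⟨A, h1, h2, h3⟩ := Vale.Agent.P057.finite4 M n hM
      refine ⟨A, h1, h2, ?_⟩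
      have h4 : (((5 * M) ^ n : ℕ) : ℝ) ≤ ((4 * n * (9 * M) ^ 2 + 1) * A.card : ℕ) := by
        exact_mod_cast h3
      push_cast at h4 ⊢
      have : (5 / 9 * (9 * (M : ℝ))) = 5 * M := by ring
      rw [this]; exact h4) C hC'
  filter_upwards [h] with N ⟨A, h1, h2, h3⟩
  refine ⟨A.image (· + 1), ?_, ?_, ?_⟩
  · intro x hx
    obtain ⟨y, hy, rfl⟩ := mem_image.mp hx
    have := mem_range.mp (h1 hy)
    simp; omega
  · rintro a d hd ⟨m0, m1, m2, m3⟩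
    obtain ⟨y0, hy0, e0⟩ := mem_image.mp m0
    obtain ⟨y1, hy1, e1⟩ := mem_image.mp m1
    obtain ⟨y2, hy2, e2⟩ := mem_image.mp m2
    obtain ⟨y3, hy3, e3⟩ := mem_image.mp m3
    refine h2 y0 d hd ⟨hy0, ?_, ?_, ?_⟩
    · rwa [show y0 + d = y1 by omega]
    · rwa [show y0 + 2 * d = y2 by omega]
    · rwa [show y0 + 3 * d = y3 by omega]
  · rwa [card_image_of_injective _ (add_left_injective 1)]

end Vale.Agent.Results.P057.FourTerm
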